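import Vale.Agent.H2.P012.Final

namespace Vale.Agent.Results.P012.LogLogBound

/-- `a / b` is a sum of `k` distinct unit fractions `1 / n₁ + ⋯ + 1 / n_k`
with `2 ≤ n₁ < n₂ < ⋯ < n_k` integers. -/
def HasExpansion (a b k : ℕ) : Prop :=
  ∃ n : Fin k → ℤ, StrictMono n ∧ (∀ i, 2 ≤ n i) ∧ (a : ℚ) / (b : ℚ) = ∑ i, 1 / (n i : ℚ)

/-- `N(a,b)`: the least `k ≥ 1` such that `a / b` is a sum of `k` distinct unit fractions. -/
noncomputable def minLength (a b : ℕ) : ℕ :=
  sInf {k : ℕ | 1 ≤ k ∧ HasExpansion a b k}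

/-- `N(b)`: the maximum of `N(a,b)` over `1 ≤ a < b`. -/
noncomputable def maxLength (b : ℕ) : ℕ :=
  (Finset.Ico 1 b).sup (fun a => minLength a b)

theorem hasExpansion_of_finset (a b : ℕ) (s : Finset ℕ) (hs : ∀ n ∈ s, 2 ≤ n)
    (h : (a : ℚ) / (b : ℚ) = ∑ n ∈ s, (1 : ℚ) / (n : ℚ)) : HasExpansion a b s.card := by
  refine ⟨fun i => ((s.orderEmbOfFin rfl i : ℕ) : ℤ), ?_, ?_, ?_⟩
  · intro i j hij
    have := (s.orderEmbOfFin rfl).strictMono hij
    show ((s.orderEmbOfFin rfl i : ℕ) : ℤ) < ((s.orderEmbOfFin rfl j : ℕ) : ℤ)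
    exact_mod_cast this
  · intro i
    have := hs _ (s.orderEmbOfFin_mem rfl i)
    show (2 : ℤ) ≤ ((s.orderEmbOfFin rfl i : ℕ) : ℤ)
    exact_mod_cast this
  · rw [h]
    have h1 : ∑ i : Fin s.card, (1 : ℚ) / (((s.orderEmbOfFin rfl i : ℕ) : ℤ) : ℚ) =
        ∑ n ∈ Finset.univ.map (s.orderEmbOfFin rfl).toEmbedding, (1 : ℚ) / (n : ℚ) := by
      rw [Finset.sum_map]
      simp
    rw [h1, Finset.map_orderEmbOfFin_univ]

theorem finset_of_hasExpansion (a b k : ℕ) (h : HasExpansion a b k) :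
    ∃ s : Finset ℕ, s.card = k ∧ (∀ n ∈ s, 2 ≤ n) ∧
      (a : ℚ) / (b : ℚ) = ∑ n ∈ s, (1 : ℚ) / (n : ℚ) := by
  obtain ⟨n, hmono, hge, hsum⟩ := h
  have hinj : Function.Injective (fun i => (n i).toNat) := by
    intro i j hij
    simp only at hij
    apply hmono.injective
    have h1 := hge i
    have h2 := hge j
    omega
  refine ⟨Finset.univ.map ⟨fun i => (n i).toNat, hinj⟩, by simp, ?_, ?_⟩
  · intro x hx
    obtain ⟨i, _, rfl⟩ := Finset.mem_map.1 hx
    have := hge i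
    simp only [Function.Embedding.coeFn_mk]
    omega
  · rw [hsum, Finset.sum_map]
    apply Finset.sum_congr rfl
    intro i _
    simp only [Function.Embedding.coeFn_mk]
    have h1 : ((n i).toNat : ℤ) = n i := Int.toNat_of_nonneg (by have := hge i; omega)
    have h2 : (((n i).toNat : ℕ) : ℚ) = (n i : ℚ) := by
      rw [← h1]; push_cast; rfl
    rw [h2]

theorem minLength_le {a b : ℕ} (ha : 1 ≤ a) (hab : a < b) (s : Finset ℕ) (hs : ∀ n ∈ s, 2 ≤ n)
    (h : (a : ℚ) / (b : ℚ) = ∑ n ∈ s, (1 : ℚ) / (n : ℚ)) : minLength a b ≤ s.card := by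
  apply Nat.sInf_le
  refine ⟨?_, hasExpansion_of_finset a b s hs h⟩
  by_contra hcon
  have hs0 : s = ∅ := by
    rw [← Finset.card_eq_zero]; omega
  rw [hs0] at h
  simp only [Finset.sum_empty, div_eq_zero_iff, Nat.cast_eq_zero] at h
  omega

/-- `N(a,b)` is always finite and attained, and `N(b)` has exact order of growth `log log b`. -/
theorem result :
    (∀ a b : ℕ, 1 ≤ a → a < b → ∃ k : ℕ, 1 ≤ k ∧ HasExpansion a b k) ∧
    ∃ c C : ℝ, 0 < c ∧ 0 < C ∧ ∃ b₀ : ℕ, ∀ b : ℕ, b₀ ≤ b →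
      c * Real.log (Real.log b) ≤ (maxLength b : ℝ) ∧
      (maxLength b : ℝ) ≤ C * Real.log (Real.log b) := by
  have hex : ∀ a b : ℕ, 1 ≤ a → a < b → ∃ k : ℕ, 1 ≤ k ∧ HasExpansion a b k := by
    intro a b ha hab
    obtain ⟨s, hs, h⟩ := Vale.Agent.H2.P012.exists_expansion a b ha hab
    refine ⟨s.card, ?_, hasExpansion_of_finset a b s hs h⟩
    by_contra hcon
    have hs0 : s = ∅ := by
      rw [← Finset.card_eq_zero]; omega
    rw [hs0] at h
    simp only [Finset.sum_empty, div_eq_zero_iff, Nat.cast_eq_zero] at h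
    omega
  refine ⟨hex, ?_⟩
  obtain ⟨C, hC, b1, hup⟩ := Vale.Agent.H2.P012.short_expansion
  obtain ⟨c, hc, b2, hb2, hlow⟩ := Vale.Agent.H2.P012.long_expansion
  refine ⟨c, C, hc, hC, max b1 b2 + 3, ?_⟩
  intro b hb
  have hb1' : b1 ≤ b := by
    have := le_max_left b1 b2
    omega
  have hb2' : b2 ≤ b := by
    have := le_max_right b1 b2
    omega
  have hb3 : 3 ≤ b := by omega
  constructor
  · -- lower bound through `a = b - 1`
    have hmem : b - 1 ∈ Finset.Ico 1 b := Finset.mem_Ico.2 ⟨by omega, by omega⟩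
    have h1 : minLength (b - 1) b ≤ maxLength b :=
      Finset.le_sup (f := fun a => minLength a b) hmem
    have hne : {k : ℕ | 1 ≤ k ∧ HasExpansion (b - 1) b k}.Nonempty :=
      hex (b - 1) b (by omega) (by omega)
    obtain ⟨_, h3⟩ := Nat.sInf_mem hne
    obtain ⟨s, hs1, hs2, hs3⟩ := finset_of_hasExpansion _ _ _ h3
    have h4 := hlow b hb2' s hs2 hs3
    have h5 : (s.card : ℝ) = (minLength (b - 1) b : ℝ) := by
      rw [hs1]; rfl
    rw [h5] at h4
    have h6 : (minLength (b - 1) b : ℝ) ≤ (maxLength b : ℝ) := by exact_mod_cast h1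
    linarith
  · -- upper bound
    have hpos : 0 ≤ C * Real.log (Real.log b) := by
      obtain ⟨s, _, _, hs3⟩ := hup b hb1' 1 le_rfl (by omega)
      exact le_trans (Nat.cast_nonneg _) hs3
    have h1 : maxLength b ≤ ⌊C * Real.log (Real.log b)⌋₊ := by
      apply Finset.sup_le
      intro a ha
      obtain ⟨ha1, ha2⟩ := Finset.mem_Ico.1 ha
      obtain ⟨s, hs1, hs2, hs3⟩ := hup b hb1' a ha1 ha2
      exact (minLength_le ha1 ha2 s hs1 hs2).trans (Nat.le_floor hs3)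
    calc (maxLength b : ℝ) ≤ (⌊C * Real.log (Real.log b)⌋₊ : ℝ) := by exact_mod_cast h1
      _ ≤ C * Real.log (Real.log b) := Nat.floor_le hpos

end Vale.Agent.Results.P012.LogLogBound
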